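import Vale.Agent.P040.Bp.Plan

/-!
# The algebra of the antipode of a tuple

`lps L`: the product of the loops of `L`. `bar (A ++ B)`, `bar (cj c L)`, `bar (bar L)`, entries of
`bar L`, invariance of `bar` under rotation and conjugation of a tuple with product `1`.
-/

set_option autoImplicit false

namespace Vale.Agent.P040.Bp

open Topo Finset Hz

variable {α G : Type*} [Group G]

/-- The product of the loops of a tuple. -/
def lps (L : List (α × G)) : G := (L.map Prod.snd).prod

@[simp] theorem lps_nil : lps ([] : List (α × G)) = 1 := rfl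

@[simp] theorem lps_cons (p : α × G) (L : List (α × G)) : lps (p :: L) = p.2 * lps L := by
  unfold lps; simp

@[simp] theorem lps_append (A B : List (α × G)) : lps (A ++ B) = lps A * lps B := by
  unfold lps; simp

@[simp] theorem cj_nil (c : G) : cj c ([] : List (α × G)) = [] := rfl

@[simp] theorem cj_cons (c : G) (p : α × G) (L : List (α × G)) :
    cj c (p :: L) = (p.1, c * p.2 * c⁻¹) :: cj c L := rfl

@[simp] theorem cj_append (c : G) (A B : List (α × G)) : cj c (A ++ B) = cj c A ++ cj c B := by
  unfold cj; simp

@[simp] theorem cj_length (c : G) (L : List (α × G)) : (cj c L).length = L.length := by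
  unfold cj; simp

theorem cj_map_fst (c : G) (L : List (α × G)) : (cj c L).map Prod.fst = L.map Prod.fst := by
  unfold cj
  rw [List.map_map]
  rfl

@[simp] theorem lps_cj (c : G) (L : List (α × G)) : lps (cj c L) = c * lps L * c⁻¹ := by
  induction L with
  | nil => simp
  | cons p L ih => rw [cj_cons, lps_cons, lps_cons, ih]; group

theorem cj_eq_of_mul {c : G} {x : α} {g : G} (h : c * g = g * c) : cj c [(x, g)] = [(x, g)] := by
  simp [h]

@[simp] theorem bar_nil : bar ([] : List (α × G)) = [] := rfl

theorem bar_cons (p : α × G) (L : List (α × G)) : bar (p :: L) = cj p.2 (bar L) ++ [p] := rfl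

theorem bar_single (p : α × G) : bar [p] = [p] := rfl

/-- The antipode of a concatenation. -/
theorem bar_append (A B : List (α × G)) : bar (A ++ B) = cj (lps A) (bar B) ++ bar A := by
  induction A with
  | nil => simp [cj_one]
  | cons p A ih =>
    rw [List.cons_append, bar_cons, ih, cj_append, cj_cj, bar_cons, lps_cons, List.append_assoc]

theorem bar_append_singleton (A : List (α × G)) (p : α × G) :
    bar (A ++ [p]) = (p.1, lps A * p.2 * (lps A)⁻¹) :: bar A := by
  rw [bar_append, bar_single]; rfl

/-- The entry of `bar L` coming from an entry of `L`. -/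
theorem bar_middle (A B : List (α × G)) (p : α × G) :
    bar (A ++ p :: B) =
      cj (lps A * p.2) (bar B) ++ (p.1, lps A * p.2 * (lps A)⁻¹) :: bar A := by
  rw [bar_append, bar_cons, cj_append, cj_cj]
  simp

/-- The antipode of three blocks. -/
theorem bar_append3 (A B C : List (α × G)) :
    bar (A ++ B ++ C) = cj (lps A * lps B) (bar C) ++ cj (lps A) (bar B) ++ bar A := by
  rw [bar_append, bar_append, lps_append, List.append_assoc]

@[simp] theorem bar_length (L : List (α × G)) : (bar L).length = L.length := by
  induction L with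
  | nil => rfl
  | cons p L ih => rw [bar_cons]; simp [ih]

theorem bar_map_fst (L : List (α × G)) : (bar L).map Prod.fst = (L.map Prod.fst).reverse := by
  induction L with
  | nil => rfl
  | cons p L ih => rw [bar_cons, List.map_append, cj_map_fst, ih]; simp

/-- `bar` commutes with conjugation. -/
theorem bar_cj (c : G) (L : List (α × G)) : bar (cj c L) = cj c (bar L) := by
  induction L with
  | nil => rfl
  | cons p L ih =>
    rw [cj_cons, bar_cons, bar_cons, ih, cj_append, cj_cj, cj_cj]
    congr 2
    simp only
    group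

@[simp] theorem lps_bar (L : List (α × G)) : lps (bar L) = lps L := by
  induction L with
  | nil => rfl
  | cons p L ih => rw [bar_cons, lps_append, lps_cj, ih]; simp

/-- The antipode of the antipode. -/
theorem bar_bar (L : List (α × G)) : bar (bar L) = cj (lps L) L := by
  induction L with
  | nil => rfl
  | cons p L ih =>
    rw [bar_cons, bar_append_singleton, lps_cj, lps_bar, bar_cj, ih, cj_cj, cj_cons, lps_cons]
    congr 2
    group

theorem bar_bar_of_lps {L : List (α × G)} (h : lps L = 1) : bar (bar L) = L := by
  rw [bar_bar, h, cj_one]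

/-- The entries of the reversed antipode: `(x_j, C_j g_j C_j⁻¹)` with `C_j = g_1 ⋯ g_{j-1}`. -/
theorem bar_reverse_getElem (L : List (α × G)) (j : ℕ) (hj : j < L.length) :
    (bar L).reverse[j]'(by simpa using hj) =
      ((L[j]).1, lps (L.take j) * (L[j]).2 * (lps (L.take j))⁻¹) := by
  have h1 : L = L.take j ++ L[j] :: L.drop (j + 1) := by
    rw [List.getElem_cons_drop, List.take_append_drop]
  have h2 : (bar L).reverse = (bar (L.take j)).reverse ++
      (((L[j]).1, lps (L.take j) * (L[j]).2 * (lps (L.take j))⁻¹) ::
        (cj (lps (L.take j) * (L[j]).2) (bar (L.drop (j + 1)))).reverse) := by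
    conv_lhs => rw [h1, bar_middle]
    simp
  have h3 : (bar (L.take j)).reverse.length = j := by
    simp [List.length_take, Nat.min_eq_left hj.le]
  rw [List.getElem_of_eq h2]
  rw [List.getElem_append_right (by omega)]
  simp only [h3, Nat.sub_self, List.getElem_cons_zero]

theorem rot_one_lps {p : α × G} {L : List (α × G)} (h : lps (p :: L) = 1) :
    lps (L ++ [p]) = 1 := by
  rw [lps_cons] at h
  rw [lps_append, lps_cons, lps_nil, mul_one]
  have : lps L = (p.2)⁻¹ := (inv_eq_of_mul_eq_one_right h).symm
  rw [this]; group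

/-- The antipode of a rotated tuple with product `1`: one step. -/
theorem bar_rot_one {p : α × G} {L : List (α × G)} (h : lps (p :: L) = 1) :
    bar (L ++ [p]) = p :: cj (p.2)⁻¹ (cj p.2 (bar L)) := by
  rw [bar_append_singleton, cj_cj, inv_mul_cancel, cj_one]
  have h1 : lps L = (p.2)⁻¹ := by
    rw [lps_cons] at h
    exact (inv_eq_of_mul_eq_one_right h).symm
  rw [h1]
  congr 1
  obtain ⟨x, g⟩ := p
  simp

theorem lps_rotated {L L' : List (α × G)} (h : L ~r L') (h1 : lps L = 1) : lps L' = 1 := by
  obtain ⟨n, rfl⟩ := h
  induction n generalizing L with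
  | zero => simpa using h1
  | succ n ih =>
    cases L with
    | nil => simp
    | cons p L =>
      rw [List.rotate_cons_succ]
      exact ih (rot_one_lps h1)

theorem lps_TEq {L L' : List (α × G)} (h : TEq L L') (h1 : lps L = 1) : lps L' = 1 := by
  obtain ⟨c, hc⟩ := h
  apply lps_rotated hc
  rw [lps_cj, h1]
  group

/-- The product of the loops is determined by `TEq` up to conjugation. -/
theorem lps_rotated_conj {L L' : List (α × G)} (h : L ~r L') : IsConj (lps L) (lps L') := by
  obtain ⟨n, rfl⟩ := h
  induction n generalizing L with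
  | zero => rw [List.rotate_zero]
  | succ n ih =>
    cases L with
    | nil => simp
    | cons p L =>
      rw [List.rotate_cons_succ]
      refine IsConj.trans ?_ (ih (L := L ++ [p]))
      rw [isConj_iff]
      refine ⟨(p.2)⁻¹, ?_⟩
      rw [lps_cons, lps_append, lps_cons, lps_nil]
      group

/-- The antipode of a rotated tuple with product `1`. -/
theorem bar_rotated {L L' : List (α × G)} (h : L ~r L') (h1 : lps L = 1) :
    TEq (bar L) (bar L') := by
  obtain ⟨n, rfl⟩ := h
  induction n generalizing L with
  | zero => rw [List.rotate_zero]; exact TEq.refl _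
  | succ n ih =>
    cases L with
    | nil => simpa using TEq.refl _
    | cons p L =>
      rw [List.rotate_cons_succ]
      refine TEq.trans ?_ (ih (rot_one_lps h1))
      refine ⟨(p.2)⁻¹, ?_⟩
      rw [bar_rot_one h1, bar_cons, cj_append, List.isRotated_comm]
      have h2 : cj (p.2)⁻¹ [p] = [p] := by
        obtain ⟨x, g⟩ := p
        apply cj_eq_of_mul
        simp
      rw [h2]
      have h3 := List.isRotated_append (l := [p]) (l' := cj (p.2)⁻¹ (cj p.2 (bar L)))
      simpa using h3

/-- **The antipode respects `TEq`** on tuples with product `1`. -/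
theorem TEq.bar {L L' : List (α × G)} (h : TEq L L') (h1 : lps L = 1) :
    TEq (bar L) (bar L') := by
  obtain ⟨c, hc⟩ := h
  have h2 : TEq (Bp.bar (cj c L)) (Bp.bar L') := bar_rotated hc (by rw [lps_cj, h1]; group)
  rw [bar_cj] at h2
  exact (TEq.of_cj c _).trans h2

/-- A tuple with product `1` is determined up to `TEq` by its antipode. -/
theorem TEq.of_bar {L L' : List (α × G)} (h : TEq (Bp.bar L) (Bp.bar L')) (h1 : lps L = 1) :
    TEq L L' := by
  have h2 := lps_TEq h (by rw [lps_bar, h1])
  rw [lps_bar] at h2
  have h3 := h.bar (by rw [lps_bar, h1])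
  rwa [bar_bar_of_lps h1, bar_bar_of_lps h2] at h3

theorem TEq.length {L L' : List (α × G)} (h : TEq L L') : L.length = L'.length := by
  obtain ⟨c, hc⟩ := h
  rw [← hc.perm.length_eq, cj_length]

theorem TEq.perm_fst {L L' : List (α × G)} (h : TEq L L') :
    (L.map Prod.fst).Perm (L'.map Prod.fst) := by
  obtain ⟨c, hc⟩ := h
  rw [← cj_map_fst c L]
  exact hc.perm.map _

/-- Bring the entry of `x` to the front. -/
theorem TEq.front {L : List (α × G)} {x : α} (hx : x ∈ L.map Prod.fst) :
    ∃ g R, TEq L ((x, g) :: R) := by
  rw [List.mem_map] at hx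
  obtain ⟨⟨y, g⟩, hy, rfl⟩ := hx
  obtain ⟨A, B, rfl⟩ := List.append_of_mem hy
  refine ⟨g, B ++ A, TEq.of_rot ?_⟩
  have := List.isRotated_append (l := A) (l' := (y, g) :: B)
  simpa using this

/-! ### The two halving blocks at a leaf `z`, `L = z :: B ++ q :: D` -/

/-- The antipode of `z :: B ++ q :: D`, rotated so that `z` is in front: the block after `z`
consists of the leaves of `D`, the block before `z` of the leaves of `B`. -/
theorem bar_front (p : α × G) (B : List (α × G)) (q : α × G) (D : List (α × G)) :
    TEq (bar (p :: (B ++ q :: D)))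
      (p :: (cj (p.2 * lps B * q.2) (bar D) ++
        (q.1, p.2 * lps B * q.2 * (lps B)⁻¹ * (p.2)⁻¹) :: cj p.2 (bar B))) := by
  apply TEq.of_rot
  rw [bar_cons, bar_middle, cj_append, cj_cj, cj_cons]
  have h3 := List.isRotated_append
    (l := cj (p.2 * (lps B * q.2)) (bar D) ++
      (q.1, p.2 * (lps B * q.2 * (lps B)⁻¹) * (p.2)⁻¹) :: cj p.2 (bar B)) (l' := [p])
  have e1 : p.2 * (lps B * q.2) = p.2 * lps B * q.2 := by group
  have e2 : p.2 * (lps B * q.2 * (lps B)⁻¹) * (p.2)⁻¹ =
      p.2 * lps B * q.2 * (lps B)⁻¹ * (p.2)⁻¹ := by group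
  simp only [e1, e2] at h3 ⊢
  simpa using h3

/-- Product of the block of the antipode after `z`: with `g_z B q D = 1` it is
`(g_z B q) D (g_z B q)⁻¹ = D⁻¹ D D = lps D`. -/
theorem lps_block_D (p : α × G) (B : List (α × G)) (q : α × G) (D : List (α × G))
    (h : lps (p :: (B ++ q :: D)) = 1) :
    lps (cj (p.2 * lps B * q.2) (bar D)) = lps D := by
  rw [lps_cj, lps_bar]
  have h1 : p.2 * lps B * q.2 = (lps D)⁻¹ := by
    simp only [lps_cons, lps_append] at h
    apply eq_inv_of_mul_eq_one_left
    rw [← h]; group
  rw [h1]; group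

/-- Product of the block of the antipode before `z`. -/
theorem lps_block_B (p : α × G) (B : List (α × G)) :
    lps (cj p.2 (bar B)) = p.2 * lps B * (p.2)⁻¹ := by
  rw [lps_cj, lps_bar]

/-- With `g_z = w T w⁻¹`: the element of the block before `z` of the antipode is the element of the
block after `z` of the star, conjugated by `T`. -/
theorem lps_block_B_word (p : α × G) (B : List (α × G)) {w T : G} (hp : p.2 = w * T * w⁻¹) :
    w⁻¹ * lps (cj p.2 (bar B)) * w = T * (w⁻¹ * lps B * w) * T⁻¹ := by
  rw [lps_block_B, hp]; group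

end Vale.Agent.P040.Bp
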