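import Vale.Agent.P040.H84.CoreDef
import Vale.Agent.P040.H147.Bar

/-!
# P040: the potentials of the antipode

If the tuple of the framed star `L'` is the antipode of the tuple of `L` (up to rotation and
conjugation) then the potentials differ by `(h - 1) / 2` modulo `h - 1`.
-/

set_option autoImplicit false

namespace Vale.Agent.P040.H84

open Bp

variable {X G : Type*} [Group G]

/-- the tuple of a framed star -/
def tp (T : X → G) (L : List (X × G)) : List (X × G) := L.map fun p => (p.1, gg T p)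

@[simp] theorem tp_nil (T : X → G) : tp T [] = [] := rfl

@[simp] theorem tp_cons (T : X → G) (p : X × G) (L : List (X × G)) :
    tp T (p :: L) = (p.1, gg T p) :: tp T L := rfl

@[simp] theorem tp_append (T : X → G) (L M : List (X × G)) :
    tp T (L ++ M) = tp T L ++ tp T M := by simp [tp]

@[simp] theorem tp_length (T : X → G) (L : List (X × G)) : (tp T L).length = L.length := by
  simp [tp]

theorem lps_tp (T : X → G) (L : List (X × G)) : lps (tp T L) = pr T L := by
  induction L with
  | nil => rfl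
  | cons p L ih => simp [ih]

theorem tp_map_fst (T : X → G) (L : List (X × G)) : (tp T L).map Prod.fst = L.map Prod.fst := by
  unfold tp
  rw [List.map_map]
  rfl

omit [Group G] in
/-- a rotation of a list with distinct leaves which keeps the first leaf is trivial -/
theorem eq_of_isRotated {p q : X × G} {L M : List (X × G)} (h : (p :: L) ~r (q :: M))
    (hn : ((p :: L).map Prod.fst).Nodup) (hpq : p.1 = q.1) : p :: L = q :: M := by
  obtain ⟨n, hn1, h1⟩ := List.isRotated_iff_mod.1 h
  rcases Nat.eq_zero_or_pos n with h0 | h0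
  · subst h0
    simpa using h1
  rcases Nat.lt_or_ge n (p :: L).length with h2 | h2
  · exfalso
    have h3 : q = (p :: L)[n] := by
      have h4 : ((p :: L).rotate n)[0]'(by simp) = q := by
        simp only [h1, List.getElem_cons_zero]
      rw [List.getElem_rotate] at h4
      rw [← h4]
      congr 1
      rw [Nat.zero_add, Nat.mod_eq_of_lt h2]
    have h5 : ((p :: L).map Prod.fst)[0]'(by simp) = ((p :: L).map Prod.fst)[n]'(by simpa using h2) := by
      simp only [List.getElem_map, ← h3, List.getElem_cons_zero]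
      exact hpq
    have h6 := (List.Nodup.getElem_inj_iff hn).1 h5
    omega
  · have h7 : n = (p :: L).length := le_antisymm hn1 h2
    rw [h7, List.rotate_length] at h1
    exact h1

section hyp

variable {h : ℕ} {T : X → G} {Val : X → G → ℝ → Prop} {Dg : List (X × G) → Prop} {ε : ℝ}
  (H : CoreHyp h T Val Dg ε)

include H

theorem CoreHyp.twist_pow {z : X} {R : G} {v : ℝ} (hv : Val z R v) (n : ℕ) :
    Val z ((T z ^ n)⁻¹ * R * T z ^ n) (v + ε * n * (h - 1)) := by
  induction n with
  | zero => simpa using hv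
  | succ n ih =>
    have h1 := H.twist ih
    convert h1 using 1
    · rw [pow_succ]; group
    · push_cast; ring

theorem CoreHyp.twist_zpow {z : X} {R R' : G} {v v' : ℝ} (hv : Val z R v) (hv' : Val z R' v')
    (j : ℤ) (hR : R' = (T z ^ j)⁻¹ * R * T z ^ j) : v' = v + ε * j * (h - 1) := by
  obtain ⟨n, hn | hn⟩ := j.eq_nat_or_neg
  · subst hn
    have h1 := H.twist_pow hv n
    rw [zpow_natCast] at hR
    rw [← hR] at h1
    have := H.uniq hv' h1
    rw [this]; push_cast; ring
  · subst hn
    have h1 := H.twist_pow hv' n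
    have h2 : (T z ^ n)⁻¹ * R' * T z ^ n = R := by
      rw [hR, zpow_neg, zpow_natCast]; group
    rw [h2] at h1
    have := H.uniq hv h1
    rw [this]; push_cast; ring

/-- the two windows at the front arm -/
theorem CoreHyp.win {z : X} {w : G} {q : X × G} {M1 M2 : List (X × G)}
    (hD : Dg ((z, w) :: (M1 ++ q :: M2))) (h1 : M1.length = h - 1) (h2 : M2.length = h - 1) :
    ∃ v1 v2, Val z (w⁻¹ * pr T M1 * w) v1 ∧ Val z (w⁻¹ * pr T M2 * w) v2 ∧
      Fp h T Val (z, w) (M1 ++ q :: M2) = (v1 + v2) / 2 := by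
  have hh := H.two_le
  obtain ⟨v1, hv1⟩ : ∃ v1, Val z (w⁻¹ * pr T M1 * w) v1 := by
    obtain ⟨A, b, rfl⟩ : ∃ A b, M1 = A ++ [b] := by
      rcases List.eq_nil_or_concat' M1 with h3 | ⟨A, b, h3⟩
      · rw [h3, List.length_nil] at h1; omega
      · exact ⟨A, b, h3⟩
    have h3 : Dg ((z, w) :: (A ++ b :: ([] ++ q :: M2))) := by simpa using hD
    have h4 : A.length + ([] : List (X × G)).length + 2 = h := by
      simp only [List.length_append, List.length_cons, List.length_nil] at h1 ⊢; omega
    obtain ⟨c1, c2, a2, a3, b3, b1, -, -, -, h5, -⟩ := H.tri h3 h4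
    exact ⟨a3, by simpa using h5⟩
  obtain ⟨v2, hv2⟩ : ∃ v2, Val z (w⁻¹ * pr T M2 * w) v2 := by
    obtain ⟨A, b, rfl⟩ : ∃ A b, M2 = A ++ [b] := by
      rcases List.eq_nil_or_concat' M2 with h3 | ⟨A, b, h3⟩
      · rw [h3, List.length_nil] at h2; omega
      · exact ⟨A, b, h3⟩
    have h0 : Dg (((z, w) :: M1) ++ (q :: (A ++ [b]))) := by simpa using hD
    have h3 : Dg (q :: (A ++ b :: ([] ++ (z, w) :: M1))) := by
      have := H.rotn h0
      simpa using this
    have h4 : A.length + ([] : List (X × G)).length + 2 = h := by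
      simp only [List.length_append, List.length_cons, List.length_nil] at h2 ⊢; omega
    obtain ⟨c1, c2, a2, a3, b3, b1, h5, -⟩ := H.tri h3 h4
    exact ⟨c1, by simpa using h5⟩
  refine ⟨v1, v2, hv1, hv2, ?_⟩
  unfold Fp
  have e1 : (M1 ++ q :: M2).take (h - 1) = M1 := by rw [← h1, List.take_left]
  have e2 : (M1 ++ q :: M2).drop h = M2 := by
    have : h = (M1 ++ [q]).length := by simp [h1]; omega
    rw [show M1 ++ q :: M2 = (M1 ++ [q]) ++ M2 by simp, this, List.drop_left]
  rw [e1, e2, H.vv_eq hv1, H.vv_eq hv2]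

/-- splitting a star at a leaf: the leaf in front, two windows of length `h - 1` -/
theorem CoreHyp.front {L : List (X × G)} (hD : Dg L) {z : X} (hz : z ∈ L.map Prod.fst) :
    ∃ (w : G) (q : X × G) (M1 M2 : List (X × G)), Dg ((z, w) :: (M1 ++ q :: M2)) ∧
      M1.length = h - 1 ∧ M2.length = h - 1 ∧
      F h T Val z L = Fp h T Val (z, w) (M1 ++ q :: M2) ∧
      (tp T L) ~r (tp T ((z, w) :: (M1 ++ q :: M2))) := by
  have hh := H.two_le
  obtain ⟨A, w, B, rfl, hA, hB⟩ := exists_split hz (H.nodup hD)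
  have h1 : Dg ((z, w) :: (B ++ A)) := by
    have := H.rotn hD
    simpa using this
  have hl : (B ++ A).length = 2 * h - 1 := by
    have := H.len h1
    rw [List.length_cons] at this
    omega
  have h2 : (B ++ A).drop (h - 1) ≠ [] := by
    intro h3
    have := congrArg List.length h3
    rw [List.length_drop, List.length_nil] at this
    omega
  obtain ⟨q, M2, h3⟩ := List.exists_cons_of_ne_nil h2
  have h4 : B ++ A = (B ++ A).take (h - 1) ++ q :: M2 := by
    rw [← h3, List.take_append_drop]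
  refine ⟨w, q, (B ++ A).take (h - 1), M2, ?_, ?_, ?_, ?_, ?_⟩
  · rw [← h4]; exact h1
  · rw [List.length_take]; omega
  · have := congrArg List.length h3
    rw [List.length_drop, List.length_cons] at this
    omega
  · rw [← h4, F_eq h T Val hA]
  · rw [← h4]
    simp only [tp_append, tp_cons]
    have := List.isRotated_append (l := tp T A) (l' := (z, gg T (z, w)) :: tp T B)
    simpa using this

/-- **The antipode.** -/
theorem CoreHyp.anti_of_mem {L L' : List (X × G)} (hL : Dg L) (hL' : Dg L')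
    (ht : TEq (tp T L') (bar (tp T L))) {z : X} (hz : z ∈ L.map Prod.fst) :
    ∃ q : ℤ, F h T Val z L' = F h T Val z L + ((h : ℝ) - 1) / 2 + ((h : ℝ) - 1) * q := by
  have hz' : z ∈ L'.map Prod.fst := by
    have h1 := (TEq.perm_fst ht).mem_iff (a := z)
    rw [bar_map_fst, tp_map_fst, tp_map_fst, List.mem_reverse] at h1
    exact h1.2 hz
  obtain ⟨w, q, M1, M2, hD, l1, l2, hF, hr⟩ := H.front hL hz
  obtain ⟨w', q', M1', M2', hD', l1', l2', hF', hr'⟩ := H.front hL' hz'
  obtain ⟨v1, v2, hv1, hv2, hv⟩ := H.win hD l1 l2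
  obtain ⟨v1', v2', hv1', hv2', hv'⟩ := H.win hD' l1' l2'
  -- the tuples
  have hp : lps (tp T L) = 1 := by rw [lps_tp]; exact H.prod hL
  have hp0 : lps ((z, gg T (z, w)) :: (tp T M1 ++ (q.1, gg T q) :: tp T M2)) = 1 := by
    have := H.prod hD
    rw [← lps_tp] at this
    simpa using this
  have h1 : TEq (tp T L') (bar (tp T ((z, w) :: (M1 ++ q :: M2)))) :=
    ht.trans ((TEq.of_rot hr).bar hp)
  have h2 : TEq (tp T ((z, w') :: (M1' ++ q' :: M2')))
      ((z, gg T (z, w)) :: (cj (gg T (z, w) * lps (tp T M1) * gg T q) (bar (tp T M2)) ++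
        (q.1, gg T (z, w) * lps (tp T M1) * gg T q * (lps (tp T M1))⁻¹ * (gg T (z, w))⁻¹) ::
          cj (gg T (z, w)) (bar (tp T M1)))) := by
    refine (TEq.of_rot hr').symm.trans (h1.trans ?_)
    have := bar_front (z, gg T (z, w)) (tp T M1) (q.1, gg T q) (tp T M2)
    simpa using this
  obtain ⟨c, hc⟩ := h2
  have hn' : ((cj c (tp T ((z, w') :: (M1' ++ q' :: M2')))).map Prod.fst).Nodup := by
    rw [cj_map_fst, tp_map_fst]
    exact H.nodup hD'
  rw [tp_cons, cj_cons] at hc hn'
  have h3 := eq_of_isRotated hc hn' rfl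
  rw [List.cons.injEq, Prod.mk.injEq, tp_append, tp_cons, cj_append, cj_cons] at h3
  obtain ⟨⟨-, h4⟩, h5⟩ := h3
  have l3 : (cj c (tp T M1')).length =
      (cj (gg T (z, w) * lps (tp T M1) * gg T q) (bar (tp T M2))).length := by
    simp [l1', l2]
  obtain ⟨h6, h7⟩ := List.append_inj h5 l3
  rw [List.cons.injEq] at h7
  have h8 : c * pr T M1' * c⁻¹ = pr T M2 := by
    have := congrArg lps h6
    rw [lps_cj, lps_tp] at this
    rw [this]
    have h9 := lps_block_D _ _ _ _ hp0
    rw [lps_tp T M2] at h9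
    exact h9
  have h9 : c * pr T M2' * c⁻¹ = gg T (z, w) * pr T M1 * (gg T (z, w))⁻¹ := by
    have := congrArg lps h7.2
    rw [lps_cj, lps_tp, lps_cj, lps_bar, lps_tp] at this
    exact this
  -- the framing
  obtain ⟨j, hj⟩ := H.cent z (w⁻¹ * c * w') (by
    have h10 : c * (w' * T z * w'⁻¹) * c⁻¹ = w * T z * w⁻¹ := h4
    calc w⁻¹ * c * w' * T z = w⁻¹ * (c * (w' * T z * w'⁻¹) * c⁻¹) * (c * w') := by group
      _ = w⁻¹ * (w * T z * w⁻¹) * (c * w') := by rw [h10]
      _ = T z * (w⁻¹ * c * w') := by group)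
  have hw : w' = c⁻¹ * w * T z ^ j := by
    rw [← hj]; group
  have e1 : pr T M1' = c⁻¹ * pr T M2 * c := by rw [← h8]; group
  have e2 : pr T M2' = c⁻¹ * (gg T (z, w) * pr T M1 * (gg T (z, w))⁻¹) * c := by
    rw [← h9]; group
  have r1 : v1' = v2 + ε * j * (h - 1) := by
    refine H.twist_zpow hv2 hv1' j ?_
    rw [e1, hw]; group
  have r2 : v2' = v1 + ε * ((j - 1 : ℤ) : ℝ) * (h - 1) := by
    refine H.twist_zpow hv1 hv2' (j - 1) ?_
    rw [e2, hw]
    simp only [gg]
    rw [zpow_sub, zpow_one]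
    group
  rw [hF, hF', hv, hv', r1, r2]
  rcases H.sgn with he | he
  · refine ⟨j - 1, ?_⟩
    rw [he]; push_cast; ring
  · refine ⟨-j, ?_⟩
    rw [he]; push_cast; ring

end hyp

/-- **The antipode**, all leaves. -/
theorem CoreHyp.anti {h : ℕ} {T : Fin (2 * h) → G} {Val : Fin (2 * h) → G → ℝ → Prop}
    {Dg : List (Fin (2 * h) × G) → Prop} {ε : ℝ} (H : CoreHyp h T Val Dg ε)
    {L L' : List (Fin (2 * h) × G)} (hL : Dg L) (hL' : Dg L')
    (ht : TEq (L'.map fun p => (p.1, gg T p)) (bar (L.map fun p => (p.1, gg T p)))) :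
    ∀ z, ∃ q : ℤ, F h T Val z L' = F h T Val z L + ((h : ℝ) - 1) / 2 + ((h : ℝ) - 1) * q := by
  intro z
  refine H.anti_of_mem hL hL' ht ?_
  have h1 := H.nodup hL
  have h2 : (L.map Prod.fst).length = 2 * h := by rw [List.length_map, H.len hL]
  have h3 : (L.map Prod.fst).toFinset = Finset.univ := by
    apply Finset.eq_univ_of_card
    rw [List.toFinset_card_of_nodup h1, h2, Fintype.card_fin]
  have h4 : z ∈ (L.map Prod.fst).toFinset := by rw [h3]; exact Finset.mem_univ z
  exact List.mem_toFinset.1 h4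

end Vale.Agent.P040.H84
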